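import Vale.Agent.P296D80.Fin

/-!
# P296: Griffiths' conjecture is false, with `ℙ(E)`, `O(1)`, the Chern connection and its curvature
as objects
-/

open Vale.Agent.P296T

theorem Vale.Agent.Results.P296.AAChern.result :
    (∀ n r : ℕ, AllWellDefined (Cn r) r fun z : Cn n => z) ∧ (¬ ∀ n r : ℕ, Q1 n r) ∧
      ∀ r : ℕ, 2 ≤ r → ¬ Q1 2 r :=
  Vale.Agent.P296T.main
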